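import Vale.Agent.P280.S.H145.Frac

/-! P280, Theorem S, row B3: existence over a large field. -/

open Polynomial

namespace Vale.Agent.P280.S

section
variable {R : Type} [CommRing R] [Algebra ℂ R] {𝒜 : ℕ → Submodule ℂ R} [GradedAlgebra 𝒜]

/-- A family of homomorphisms of bounded degree. -/
theorem exists_family {I : Type} {e : ℕ} (ψ : I → R →ₐ[ℂ] ℂ[X]) (hd : ∀ z, Deg 𝒜 e (ψ z)) :
    ∃ Ψ : R →ₐ[ℂ] (I → ℂ)[X], ∀ r i z, (Ψ r).coeff i z = (ψ z r).coeff i := by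
  classical
  have hb : ∀ r, ∃ N, ∀ z, (ψ z r).natDegree ≤ N := by
    intro r
    induction r using DirectSum.Decomposition.inductionOn 𝒜 with
    | zero => exact ⟨0, fun z => by rw [map_zero, natDegree_zero]⟩
    | homogeneous m => exact ⟨_, fun z => hd z _ _ m.2⟩
    | add a b ha hb =>
      obtain ⟨N, hN⟩ := ha
      obtain ⟨N', hN'⟩ := hb
      refine ⟨max N N', fun z => ?_⟩
      rw [map_add]
      exact (natDegree_add_le _ _).trans (max_le_max (hN z) (hN' z))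
  choose N hN using hb
  have hP : ∀ r, ∃ P : (I → ℂ)[X], ∀ i, P.coeff i = fun z => (ψ z r).coeff i := by
    intro r
    refine ⟨∑ i ∈ Finset.range (N r + 1), monomial i (fun z => (ψ z r).coeff i), fun i => ?_⟩
    rw [finsetSum_coeff]
    simp only [coeff_monomial]
    rw [Finset.sum_ite_eq']
    split_ifs with h
    · rfl
    · funext z
      rw [Finset.mem_range, not_lt] at h
      exact (coeff_eq_zero_of_natDegree_lt (lt_of_le_of_lt (hN r z) h)).symm
  choose P hP using hP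
  refine ⟨{ toFun := P
            map_one' := ?_
            map_mul' := fun a b => ?_
            map_zero' := ?_
            map_add' := fun a b => ?_
            commutes' := fun c => ?_ }, fun r i z => congrFun (hP r i) z⟩
  · ext i z
    rw [hP]
    change (ψ z 1).coeff i = _
    rw [map_one, coeff_one, coeff_one]
    split_ifs <;> rfl
  · ext i z
    rw [hP, coeff_mul]
    change (ψ z (a * b)).coeff i = _
    rw [map_mul, coeff_mul, Finset.sum_apply]
    refine Finset.sum_congr rfl fun k _ => ?_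
    rw [hP, hP]
    rfl
  · ext i z
    rw [hP]
    change (ψ z 0).coeff i = _
    rw [map_zero, coeff_zero, coeff_zero]
    rfl
  · ext i z
    rw [hP, coeff_add, hP, hP]
    change (ψ z (a + b)).coeff i = _
    rw [map_add, coeff_add]
    rfl
  · ext i z
    rw [hP]
    change (ψ z (algebraMap ℂ R c)).coeff i = _
    rw [AlgHom.commutes, Polynomial.algebraMap_apply, Polynomial.algebraMap_apply, coeff_C,
      coeff_C]
    split_ifs <;> rfl

/-- A solution over a field which contains `R`. -/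
theorem exists_sol_big [IsDomain R] (hft : Algebra.FiniteType ℂ R)
    (hgen : Algebra.adjoin ℂ {h : R | h ∈ 𝒜 1} = ⊤)
    {x : R →ₐ[ℂ] ℂ} {J : Set R} {e : ℕ} {g : R} (hg : g ≠ 0)
    (hex : ∀ z : R →ₐ[ℂ] ℂ, z g ≠ 0 → ∃ ψ : R →ₐ[ℂ] ℂ[X], Sol 𝒜 x J e z ψ) :
    ∃ (K : Type) (_ : Field K) (_ : Algebra ℂ K) (θ : R →ₐ[ℂ] K) (ψ : R →ₐ[ℂ] K[X]),
      (∀ r, r ≠ 0 → θ r ≠ 0) ∧ Sol 𝒜 x J e θ ψ := by
  classical
  let I : Type := {z : R →ₐ[ℂ] ℂ // z g ≠ 0}
  have hex' : ∀ z : I, ∃ ψ : R →ₐ[ℂ] ℂ[X], Sol 𝒜 x J e z.1 ψ := fun z => hex z.1 z.2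
  choose ψz hψ using hex'
  obtain ⟨Ψ, hΨ⟩ := exists_family (𝒜 := 𝒜) ψz fun z => (hψ z).deg
  have hs : ∀ z : I, ∃ c : ℂ, c ≠ 0 ∧ ∀ d : ℕ, ∀ h ∈ 𝒜 d, (ψz z h).coeff 0 = c ^ d * x h := by
    intro z
    exact (hψ z).starts
  have he : ∀ z : I, ∃ (y : R →ₐ[ℂ] ℂ) (c : ℂ), NV 𝒜 y ∧ (∀ h ∈ J, y h = 0) ∧ c ≠ 0 ∧
      ∀ d : ℕ, ∀ h ∈ 𝒜 d, (ψz z h).coeff (d * e) = c ^ d * y h := by
    intro z
    obtain ⟨y, h1, h2, c, h3, h4⟩ := (hψ z).ends
    exact ⟨y, c, h1, h2, h3, h4⟩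
  choose c hc hs using hs
  choose y c' hy hyJ hc' he using he
  let ev : R →ₐ[ℂ] (I → ℂ) := AlgHom.pi fun z => z.1
  let yA : R →ₐ[ℂ] (I → ℂ) := AlgHom.pi y
  -- the prime ideal
  let Sg : Submonoid (I → ℂ) := (nonZeroDivisors R).map ev
  obtain ⟨M, hM, -, hdisj⟩ := Ideal.exists_le_prime_disjoint (⊥ : Ideal (I → ℂ)) Sg (by
    rw [Set.disjoint_left]
    rintro _ h0 ⟨r, hr, rfl⟩
    have hr0 : r ≠ 0 := nonZeroDivisors.ne_zero hr
    obtain ⟨z, hz⟩ := exists_point (mul_ne_zero hr0 hg)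
    rw [map_mul] at hz
    have h1 : ev r = 0 := h0
    exact left_ne_zero_of_mul hz (congrFun h1 ⟨z, right_ne_zero_of_mul hz⟩))
  let κ : (I → ℂ) →ₐ[ℂ] FractionRing ((I → ℂ) ⧸ M) :=
    (IsScalarTower.toAlgHom ℂ ((I → ℂ) ⧸ M) (FractionRing ((I → ℂ) ⧸ M))).comp
      (Ideal.Quotient.mkₐ ℂ M)
  have hκ : ∀ a, κ a = 0 ↔ a ∈ M := by
    intro a
    rw [← Ideal.Quotient.eq_zero_iff_mem]
    constructor
    · intro h
      exact IsFractionRing.injective ((I → ℂ) ⧸ M) (FractionRing ((I → ℂ) ⧸ M))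
        (by rw [map_zero]; exact h)
    · intro h
      change algebraMap ((I → ℂ) ⧸ M) (FractionRing ((I → ℂ) ⧸ M)) (Ideal.Quotient.mk M a) = 0
      rw [h, map_zero]
  have hunit : ∀ a : I → ℂ, (∀ z, a z ≠ 0) → κ a ≠ 0 := by
    intro a ha h0
    have h1 : κ (a * fun z => (a z)⁻¹) = 0 := by rw [map_mul, h0, zero_mul]
    have h2 : (a * fun z => (a z)⁻¹) = 1 := funext fun z => mul_inv_cancel₀ (ha z)
    rw [h2, map_one] at h1
    exact one_ne_zero h1
  have hcoef : ∀ r i, (((mapAlgHom κ).comp Ψ) r).coeff i = κ ((Ψ r).coeff i) := by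
    intro r i
    change (mapAlgHom κ (Ψ r)).coeff i = _
    rw [coe_mapAlgHom, coeff_map]
    rfl
  refine ⟨FractionRing ((I → ℂ) ⧸ M), inferInstance, inferInstance, κ.comp ev,
    (mapAlgHom κ).comp Ψ, fun r hr h0 => ?_, ⟨fun d r hr => ?_, ⟨κ c, hunit c hc, fun d r hr => ?_⟩,
      ⟨κ.comp yA, ?_, fun j hj => ?_, ⟨κ c', hunit c' hc', fun d r hr => ?_⟩⟩, fun r => ?_⟩⟩
  · exact Set.disjoint_left.1 hdisj ((hκ _).1 h0) ⟨r, mem_nonZeroDivisors_of_ne_zero hr, rfl⟩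
  · refine natDegree_le_iff_coeff_eq_zero.2 fun i hi => ?_
    have h1 : (Ψ r).coeff i = 0 := by
      funext z
      rw [hΨ, coeff_eq_zero_of_natDegree_lt (lt_of_le_of_lt ((hψ z).deg d r hr) hi)]
      rfl
    rw [hcoef, h1, map_zero]
  · have h1 : (Ψ r).coeff 0 = c ^ d * algebraMap ℂ (I → ℂ) (x r) := by
      funext z
      rw [hΨ, hs z d r hr]
      rfl
    rw [hcoef, h1, map_mul, map_pow, AlgHom.commutes]
    rfl
  · -- not the vertex
    obtain ⟨T, hT1, hT⟩ := exists_gen1 hft hgen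
    by_contra hcon
    have h1 : ∀ t ∈ T, yA t ∈ M := by
      intro t ht
      by_contra hne
      exact hcon ⟨t, hT1 t ht, fun h0 => hne ((hκ _).1 h0)⟩
    have h2 : (∑ t ∈ T, (fun z => (starRingEnd ℂ) (y z t)) * yA t) ∈ M :=
      Ideal.sum_mem _ fun t ht => M.mul_mem_left _ (h1 t ht)
    refine hunit _ (fun z h0 => ?_) ((hκ _).2 h2)
    rw [Finset.sum_apply] at h0
    have h3 : ∑ t ∈ T, Complex.normSq (y z t) = 0 := by
      have h4 : ((∑ t ∈ T, Complex.normSq (y z t) : ℝ) : ℂ) = 0 := by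
        rw [Complex.ofReal_sum, ← h0]
        refine Finset.sum_congr rfl fun t _ => ?_
        change _ = (starRingEnd ℂ) (y z t) * y z t
        rw [mul_comm, Complex.mul_conj]
      exact_mod_cast h4
    have h4 : ∀ t ∈ T, y z t = 0 := fun t ht =>
      Complex.normSq_eq_zero.1 ((Finset.sum_eq_zero_iff_of_nonneg
        fun t _ => Complex.normSq_nonneg _).1 h3 t ht)
    -- so the point is the vertex
    obtain ⟨u, hu, hyu⟩ := hy z
    apply hyu
    obtain ⟨y0, hy0⟩ := exists_twist (𝒜 := 𝒜) (0 : ℂ) (y z)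
    have h5 : y0 = y z := AlgHom.ext_of_adjoin_eq_top hT fun t ht => by
      rw [hy0 1 t (hT1 t ht), h4 t ht, mul_zero]
    rw [← h5, hy0 1 u hu, pow_one, zero_mul]
  · have h1 : yA j = 0 := funext fun z => hyJ z j hj
    change κ (yA j) = 0
    rw [h1, map_zero]
  · have h1 : (Ψ r).coeff (d * e) = c' ^ d * yA r := by
      funext z
      rw [hΨ, he z d r hr]
      rfl
    rw [hcoef, h1, map_mul, map_pow]
    rfl
  · have h1 : (Ψ r).eval 1 = ev r := by
      funext z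
      have h2 : (Ψ r).map (Pi.evalRingHom (fun _ : I => ℂ) z) = ψz z r := by
        ext i
        rw [coeff_map]
        exact hΨ r i z
      have h3 : (Ψ r).eval 1 z = ((Ψ r).map (Pi.evalRingHom (fun _ : I => ℂ) z)).eval 1 := by
        rw [eval_one_map]
        rfl
      rw [h3, h2]
      exact (hψ z).one r
    change (mapAlgHom κ (Ψ r)).eval 1 = κ (ev r)
    rw [coe_mapAlgHom, eval_one_map, h1]
    rfl

end

end Vale.Agent.P280.S
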