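import Vale.Agent.P280.S.H145.Uniq

/-! P280, Theorem S, row B3: the curve through the generic point. -/

open Polynomial

namespace Vale.Agent.P280.S

section tools
variable {R : Type} [CommRing R] [Algebra ℂ R] {𝒜 : ℕ → Submodule ℂ R} [GradedAlgebra 𝒜]

/-- The multiple `λ y` of the point `y` of the cone. -/
theorem exists_twist {K : Type} [CommRing K] [Algebra ℂ K] (lam : K) (y : R →ₐ[ℂ] K) :
    ∃ y' : R →ₐ[ℂ] K, ∀ d : ℕ, ∀ h ∈ 𝒜 d, y' h = lam ^ d * y h := by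
  let f : DirectSum ℕ (fun i => 𝒜 i) →ₐ[ℂ] K :=
    DirectSum.toAlgebra ℂ (fun i => 𝒜 i)
      (fun i => (lam ^ i) • (y.toLinearMap ∘ₗ (𝒜 i).subtype)) (by
        change lam ^ 0 • y ((1 : R)) = 1
        rw [pow_zero, map_one, one_smul]) (by
        intro i j a b
        change lam ^ (i + j) • y ((a : R) * (b : R)) = (lam ^ i • y (a : R)) * (lam ^ j • y (b : R))
        rw [map_mul, pow_add, smul_eq_mul, smul_eq_mul, smul_eq_mul]
        ring)
  refine ⟨f.comp (DirectSum.decomposeAlgEquiv 𝒜).toAlgHom, fun d h hh => ?_⟩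
  change f (DirectSum.decompose 𝒜 h) = _
  rw [DirectSum.decompose_of_mem 𝒜 hh]
  exact DirectSum.toAddMonoid_of
    (fun i => ((lam ^ i) • (y.toLinearMap ∘ₗ (𝒜 i).subtype)).toAddMonoidHom) d (⟨h, hh⟩ : 𝒜 d)

omit [GradedAlgebra 𝒜] in
/-- Field extensions. -/
theorem Sol.map {K L : Type} [Field K] [Algebra ℂ K] [Field L] [Algebra ℂ L] (w : K →ₐ[ℂ] L)
    {x : R →ₐ[ℂ] ℂ} {J : Set R} {e : ℕ} {θ : R →ₐ[ℂ] K} {ψ : R →ₐ[ℂ] K[X]}
    (h : Sol 𝒜 x J e θ ψ) : Sol 𝒜 x J e (w.comp θ) ((mapAlgHom w).comp ψ) := by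
  have hinj : Function.Injective w := w.injective
  have hc : ∀ r i, (((mapAlgHom w).comp ψ) r).coeff i = w ((ψ r).coeff i) := by
    intro r i
    change (mapAlgHom w (ψ r)).coeff i = _
    rw [coe_mapAlgHom, coeff_map]
    rfl
  obtain ⟨hd, ⟨c, hc0, hs⟩, ⟨y, ⟨u, hu, hyu⟩, hJ, ⟨c', hc0', he⟩⟩, hone⟩ := h
  refine ⟨fun d r hr => ?_, ⟨w c, ?_, fun d r hr => ?_⟩, ⟨w.comp y, ⟨u, hu, ?_⟩, fun j hj => ?_,
    ⟨w c', ?_, fun d r hr => ?_⟩⟩, fun r => ?_⟩
  · refine natDegree_le_iff_coeff_eq_zero.2 fun i hi => ?_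
    rw [hc, coeff_eq_zero_of_natDegree_lt (lt_of_le_of_lt (hd d r hr) hi), map_zero]
  · exact fun h0 => hc0 (hinj (by rw [h0, map_zero]))
  · rw [hc, hs d r hr, map_mul, map_pow]
    congr 1
    exact w.commutes (x r)
  · exact fun h0 => hyu (hinj (by rw [map_zero]; exact h0))
  · change w (y j) = 0
    rw [hJ j hj, map_zero]
  · exact fun h0 => hc0' (hinj (by rw [h0, map_zero]))
  · rw [hc, he d r hr, map_mul, map_pow]
    rfl
  · change (mapAlgHom w (ψ r)).eval 1 = w (θ r)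
    rw [coe_mapAlgHom, eval_one_map, hone]
    rfl

/-- Descent of solutions. -/
theorem Sol.descend {K L : Type} [Field K] [Algebra ℂ K] [Field L] [Algebra ℂ L] (w : K →ₐ[ℂ] L)
    {x : R →ₐ[ℂ] ℂ} (hx : NV 𝒜 x) {J : Set R} (hJ : ∀ h ∈ J, ∃ d : ℕ, h ∈ 𝒜 d) {e : ℕ}
    {θ : R →ₐ[ℂ] K} {φ : R →ₐ[ℂ] K[X]} (h : Sol 𝒜 x J e (w.comp θ) ((mapAlgHom w).comp φ)) :
    Sol 𝒜 x J e θ φ := by
  have hinj : Function.Injective w := w.injective
  have hc : ∀ r i, (((mapAlgHom w).comp φ) r).coeff i = w ((φ r).coeff i) := by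
    intro r i
    change (mapAlgHom w (φ r)).coeff i = _
    rw [coe_mapAlgHom, coeff_map]
    rfl
  obtain ⟨hd, ⟨c, hc0, hs⟩, ⟨y, ⟨u, hu, hyu⟩, hJ', ⟨c', hc0', he⟩⟩, hone⟩ := h
  refine ⟨fun d r hr => ?_, ?_, ?_, fun r => ?_⟩
  · refine natDegree_le_iff_coeff_eq_zero.2 fun i hi => hinj ?_
    rw [← hc, coeff_eq_zero_of_natDegree_lt (lt_of_le_of_lt (hd d r hr) hi), map_zero]
  · obtain ⟨u0, hu0, hxu⟩ := hx
    have hxu' : algebraMap ℂ K (x u0) ≠ 0 := fun h0 => hxu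
      ((algebraMap ℂ K).injective (by rw [h0, map_zero]))
    have h1 : w ((φ u0).coeff 0 / algebraMap ℂ K (x u0)) = c := by
      rw [map_div₀, ← hc, hs 1 u0 hu0, pow_one, AlgHom.commutes]
      change c * algebraMap ℂ L (x u0) / algebraMap ℂ L (x u0) = c
      rw [mul_div_assoc, div_self, mul_one]
      exact fun h0 => hxu ((algebraMap ℂ L).injective (by rw [h0, map_zero]))
    refine ⟨(φ u0).coeff 0 / algebraMap ℂ K (x u0), fun h0 => hc0 ?_, fun d r hr => hinj ?_⟩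
    · rw [← h1, h0, map_zero]
    · rw [← hc, hs d r hr, map_mul, map_pow, h1]
      congr 1
      exact (w.commutes (x r)).symm
  · classical
    obtain ⟨y', hy'⟩ := exists_twist (𝒜 := 𝒜) c' y
    have hmem : ∀ r, y' r ∈ w.range := by
      intro r
      rw [← DirectSum.sum_support_decompose 𝒜 r, map_sum]
      refine Subalgebra.sum_mem _ fun d _ => ?_
      rw [hy' d _ (SetLike.coe_mem _), ← he d _ (SetLike.coe_mem _), hc]
      exact ⟨_, rfl⟩
    choose f hf using hmem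
    have hf' : ∀ r, w (f r) = y' r := hf
    let yK : R →ₐ[ℂ] K :=
      { toFun := f
        map_one' := hinj (by rw [hf', map_one, map_one])
        map_mul' := fun a b => hinj (by rw [hf', map_mul, map_mul, hf', hf'])
        map_zero' := hinj (by rw [hf', map_zero, map_zero])
        map_add' := fun a b => hinj (by rw [hf', map_add, map_add, hf', hf'])
        commutes' := fun a => hinj (by rw [hf', AlgHom.commutes, AlgHom.commutes]) }
    have hyK : ∀ r, w (yK r) = y' r := hf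
    refine ⟨yK, ⟨u, hu, fun h0 => ?_⟩, fun j hj => hinj ?_, ⟨1, one_ne_zero, fun d r hr => hinj ?_⟩⟩
    · have h1 := hyK u
      rw [h0, map_zero, hy' 1 u hu, pow_one] at h1
      exact mul_ne_zero hc0' hyu h1.symm
    · obtain ⟨d, hd'⟩ := hJ j hj
      rw [hyK, hy' d j hd', hJ' j hj, mul_zero, map_zero]
    · rw [← hc, he d r hr, one_pow, one_mul, hyK, hy' d r hr]
  · have h1 := hone r
    change (mapAlgHom w (φ r)).eval 1 = w (θ r) at h1
    rw [coe_mapAlgHom, eval_one_map] at h1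
    exact hinj h1

end tools

end Vale.Agent.P280.S
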