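import Vale.Agent.P280.S.H145.Exist

/-! P280, Theorem S, row B3: the curve through the generic point. -/

open Polynomial

namespace Vale.Agent.P280.S

section
variable {R : Type} [CommRing R] [Algebra ℂ R] {𝒜 : ℕ → Submodule ℂ R} [GradedAlgebra 𝒜]

omit [GradedAlgebra 𝒜] in
/-- Specialisation over a field `F` to its algebraic closure. -/
theorem exists_sol_closure_aux {T : Finset R} (hT : Algebra.adjoin ℂ (T : Set R) = ⊤)
    {x : R →ₐ[ℂ] ℂ} {J : Set R} {e : ℕ} {F K : Type} [Field F] [Algebra ℂ F] [Field K]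
    [Algebra ℂ K] [Algebra F K] [IsScalarTower ℂ F K] (θF : R →ₐ[ℂ] F) {θ : R →ₐ[ℂ] K}
    (hθ : ∀ r, θ r = algebraMap F K (θF r)) {ψ : R →ₐ[ℂ] K[X]} (hsol : Sol 𝒜 x J e θ ψ) :
    ∃ (θ' : R →ₐ[ℂ] AlgebraicClosure F) (ψ' : R →ₐ[ℂ] (AlgebraicClosure F)[X]),
      (∀ r, θ' r = algebraMap F (AlgebraicClosure F) (θF r)) ∧ Sol 𝒜 x J e θ' ψ' := by
  classical
  obtain ⟨S, N, hN0, h1⟩ := spec_sol (L := AlgebraicClosure F) hT hsol
  obtain ⟨A, hAfg, hSA, hNA, hNA'⟩ : ∃ A : Subalgebra F K, A.FG ∧ (∀ s ∈ S, s ∈ A) ∧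
      (∀ s ∈ N, s ∈ A) ∧ (∀ s ∈ N, s⁻¹ ∈ A) := by
    refine ⟨Algebra.adjoin F ((S ∪ N ∪ N.image (fun s => s⁻¹) : Finset K) : Set K),
      Subalgebra.fg_adjoin_finset _, fun s hs => Algebra.subset_adjoin (by simp [hs]),
      fun s hs => Algebra.subset_adjoin (by simp [hs]), fun s hs => Algebra.subset_adjoin ?_⟩
    rw [Finset.mem_coe, Finset.mem_union]
    exact Or.inr (Finset.mem_image_of_mem _ hs)
  have hft : Algebra.FiniteType F A := (Subalgebra.fg_iff_finiteType A).1 hAfg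
  obtain ⟨w⟩ := exists_hom_closure F A
  have h3 : ∀ s (hs : s ∈ N), w ⟨s, hNA s hs⟩ ≠ 0 := by
    intro s hs h0
    have h3 : (⟨s, hNA s hs⟩ : A) * ⟨s⁻¹, hNA' s hs⟩ = 1 :=
      Subtype.ext (mul_inv_cancel₀ (hN0 s hs))
    have h4 := congrArg w h3
    rw [map_mul, map_one, h0, zero_mul] at h4
    exact zero_ne_one h4
  obtain ⟨Θ, Ψ, hΘ, hΨ, h2⟩ := h1 (A.restrictScalars ℂ) hSA hNA (w.restrictScalars ℂ) h3
  refine ⟨_, _, fun r => ?_, h2⟩
  have h3 : (Θ r : A) = algebraMap F A (θF r) := Subtype.ext ((hΘ r).trans (hθ r))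
  change w (Θ r) = _
  rw [h3]
  exact w.commutes _

/-- A solution over the algebraic closure of the function field. -/
theorem exists_sol_closure [IsDomain R] (hft : Algebra.FiniteType ℂ R)
    (hgen : Algebra.adjoin ℂ {h : R | h ∈ 𝒜 1} = ⊤)
    {x : R →ₐ[ℂ] ℂ} {J : Set R} {e : ℕ} {g : R} (hg : g ≠ 0)
    (hex : ∀ z : R →ₐ[ℂ] ℂ, z g ≠ 0 → ∃ ψ : R →ₐ[ℂ] ℂ[X], Sol 𝒜 x J e z ψ)
    (F : Type) [Field F] [Algebra ℂ F] [Algebra R F] [IsScalarTower ℂ R F] [IsFractionRing R F] :
    ∃ (θ : R →ₐ[ℂ] AlgebraicClosure F) (ψ : R →ₐ[ℂ] (AlgebraicClosure F)[X]),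
      (∀ r, θ r = algebraMap F (AlgebraicClosure F) (algebraMap R F r)) ∧
        Sol 𝒜 x J e θ ψ := by
  obtain ⟨K, _, _, θ, ψ, hθ, hsol⟩ := exists_sol_big hft hgen hg hex
  obtain ⟨T, -, hT⟩ := exists_gen1 hft hgen
  have hinj : Function.Injective θ.toRingHom := by
    rw [injective_iff_map_eq_zero]
    intro r hr
    by_contra hne
    exact hθ r hne hr
  have hι : ∀ r, IsFractionRing.lift hinj (algebraMap R F r) = θ r :=
    fun r => IsFractionRing.lift_algebraMap hinj r
  let _ : Algebra F K := (IsFractionRing.lift hinj : F →+* K).toAlgebra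
  have hιalg : ∀ r, θ r = algebraMap F K (algebraMap R F r) := fun r => (hι r).symm
  have htow : IsScalarTower ℂ F K := IsScalarTower.of_algebraMap_eq fun a => by
    rw [IsScalarTower.algebraMap_apply ℂ R F, ← hιalg, AlgHom.commutes]
  exact exists_sol_closure_aux hT (IsScalarTower.toAlgHom ℂ R F) hιalg hsol

/-- **Row B3** : the curve through the generic point. -/
theorem exists_sol_frac [IsDomain R] (hft : Algebra.FiniteType ℂ R)
    (hgen : Algebra.adjoin ℂ {h : R | h ∈ 𝒜 1} = ⊤)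
    {x : R →ₐ[ℂ] ℂ} {J : Set R} {e : ℕ} (hgood : Good 𝒜 x J e) :
    ∃ φ : R →ₐ[ℂ] (FractionRing R)[X],
      Sol 𝒜 x J e (IsScalarTower.toAlgHom ℂ R (FractionRing R)) φ := by
  obtain ⟨-, -, g, -, hg, huniq⟩ := hgood.uniq
  obtain ⟨θ, ψ, hθ, hsol⟩ := exists_sol_closure hft hgen hg (fun z hz => (huniq z hz).exists)
    (FractionRing R)
  have hinj : Function.Injective (algebraMap (FractionRing R) (AlgebraicClosure (FractionRing R))) :=
    (algebraMap (FractionRing R) (AlgebraicClosure (FractionRing R))).injective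
  have hθg : θ g ≠ 0 := by
    rw [hθ]
    exact fun h => hg (IsFractionRing.injective R (FractionRing R) (by
      rw [map_zero]; exact hinj (by rw [h, map_zero])))
  have hchar : CharZero (FractionRing R) :=
    charZero_of_injective_algebraMap (algebraMap ℂ (FractionRing R)).injective
  have hgal : IsGalois (FractionRing R) (AlgebraicClosure (FractionRing R)) := ⟨⟩
  have hmem : ∀ r i, (ψ r).coeff i ∈
      Set.range (algebraMap (FractionRing R) (AlgebraicClosure (FractionRing R))) := by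
    intro r i
    rw [InfiniteGalois.mem_range_algebraMap_iff_fixed]
    intro σ
    let s : AlgebraicClosure (FractionRing R) →ₐ[ℂ] AlgebraicClosure (FractionRing R) :=
      σ.toAlgHom.restrictScalars ℂ
    have h1 := hsol.map s
    have h2 : s.comp θ = θ := by
      ext r
      change σ (θ r) = θ r
      rw [hθ, AlgEquiv.commutes]
    rw [h2] at h1
    have h3 := sol_unique hft hgen huniq hθg hsol h1
    have h4 : (ψ r).coeff i = (((mapAlgHom s).comp ψ) r).coeff i := by rw [← h3]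
    rw [h4]
    change _ = (mapAlgHom s (ψ r)).coeff i
    rw [coe_mapAlgHom, coeff_map, ← h4]
    rfl
  -- descent
  let w : FractionRing R →ₐ[ℂ] AlgebraicClosure (FractionRing R) :=
    IsScalarTower.toAlgHom ℂ (FractionRing R) (AlgebraicClosure (FractionRing R))
  have hwinj : Function.Injective (mapAlgHom w) := by
    rw [coe_mapAlgHom]
    exact Polynomial.map_injective _ hinj
  have h1 : ∀ r, ∃ P : (FractionRing R)[X], mapAlgHom w P = ψ r := by
    intro r
    have h2 : ψ r ∈ lifts (w : FractionRing R →+* AlgebraicClosure (FractionRing R)) := by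
      rw [lifts_iff_coeff_lifts]
      intro n
      exact hmem r n
    obtain ⟨P, hP⟩ := (mem_lifts _).1 h2
    exact ⟨P, hP⟩
  choose f hf using h1
  let φ : R →ₐ[ℂ] (FractionRing R)[X] :=
    { toFun := f
      map_one' := hwinj (by rw [hf, map_one, map_one])
      map_mul' := fun a b => hwinj (by rw [hf, map_mul, map_mul, hf, hf])
      map_zero' := hwinj (by rw [hf, map_zero, map_zero])
      map_add' := fun a b => hwinj (by rw [hf, map_add, map_add, hf, hf])
      commutes' := fun a => hwinj (by rw [hf, AlgHom.commutes, AlgHom.commutes]) }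
  have hφ : (mapAlgHom w).comp φ = ψ := AlgHom.ext fun r => hf r
  have hθw : w.comp (IsScalarTower.toAlgHom ℂ R (FractionRing R)) = θ := by
    ext r
    exact (hθ r).symm
  refine ⟨φ, Sol.descend w hgood.nv hgood.hom ?_⟩
  rw [hφ, hθw]
  exact hsol

end

end Vale.Agent.P280.S
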