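import Mathlib

/-! P280, Theorem S, row S1: spreading out. -/

open Polynomial TensorProduct

namespace Vale.Agent.P280.S

/-- Nullstellensatz: maximal ideals are points. -/
theorem exists_hom_ker {A : Type*} [CommRing A] [Algebra ℂ A] [Algebra.FiniteType ℂ A]
    (N : Ideal A) [N.IsMaximal] : ∃ w : A →ₐ[ℂ] ℂ, RingHom.ker w = N := by
  let _ : Field (A ⧸ N) := Ideal.Quotient.field N
  have : Module.Finite ℂ (A ⧸ N) := finite_of_finite_type_of_isJacobsonRing ℂ (A ⧸ N)
  have hb : Function.Bijective (algebraMap ℂ (A ⧸ N)) :=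
    IsAlgClosed.algebraMap_bijective_of_isIntegral
  set e : ℂ ≃ₐ[ℂ] (A ⧸ N) := AlgEquiv.ofBijective (Algebra.ofId ℂ (A ⧸ N)) hb
  refine ⟨e.symm.toAlgHom.comp (Ideal.Quotient.mkₐ ℂ N), ?_⟩
  ext x
  rw [RingHom.mem_ker]
  simp only [AlgHom.comp_apply]
  constructor
  · intro h
    have h1 : e (e.symm (Ideal.Quotient.mkₐ ℂ N x)) = e 0 := congrArg e h
    rw [AlgEquiv.apply_symm_apply, map_zero] at h1
    exact Ideal.Quotient.eq_zero_iff_mem.mp h1
  · intro h
    have h1 : Ideal.Quotient.mkₐ ℂ N x = 0 := Ideal.Quotient.eq_zero_iff_mem.mpr h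
    rw [h1]
    exact map_zero e.symm

/-- Nullstellensatz: a nonzero element of a finitely generated `ℂ`-domain does not vanish at some
closed point. -/
theorem exists_point {A : Type*} [CommRing A] [IsDomain A] [Algebra ℂ A] [Algebra.FiniteType ℂ A]
    {a : A} (ha : a ≠ 0) : ∃ w : A →ₐ[ℂ] ℂ, w a ≠ 0 := by
  have : IsJacobsonRing A := isJacobsonRing_of_finiteType (A := ℂ)
  by_contra hcon
  push Not at hcon
  apply ha
  have h0 : (⊥ : Ideal A).jacobson = ⊥ := by
    rw [← Ideal.radical_eq_jacobson]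
    exact (Ideal.isPrime_bot).radical
  have h1 : a ∈ (⊥ : Ideal A).jacobson := by
    refine Ideal.mem_sInf.2 ?_
    rintro N ⟨-, hN⟩
    obtain ⟨w, rfl⟩ := exists_hom_ker N
    exact hcon w
  rw [h0] at h1
  exact (Ideal.mem_bot).1 h1

/-- A finitely generated `ℂ`-subalgebra of a field which contains given elements has a closed point
where given nonzero elements do not vanish. -/
theorem exists_spec {Ω : Type*} [Field Ω] [Algebra ℂ Ω] (A : Subalgebra ℂ Ω) (hA : A.FG) {a : Ω}
    (haA : a ∈ A) (ha : a ≠ 0) : ∃ w : A →ₐ[ℂ] ℂ, w ⟨a, haA⟩ ≠ 0 := by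
  have : Algebra.FiniteType ℂ A := (Subalgebra.fg_iff_finiteType A).1 hA
  exact exists_point (a := (⟨a, haA⟩ : A)) fun h => ha (congrArg Subtype.val h)

/-- If two `ℂ`-homomorphisms to a field differ, their specialisations at some closed point of the
base differ. -/
theorem exists_two {R U Ω : Type*} [CommRing R] [Algebra ℂ R] [Algebra.FiniteType ℂ R]
    [CommRing U] [Algebra ℂ U] [Algebra.FiniteType ℂ U] [Field Ω] [Algebra ℂ Ω]
    (ζ : R →ₐ[ℂ] U) (β β' : U →ₐ[ℂ] Ω) (hββ : β.comp ζ = β'.comp ζ) {g : R}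
    (hg : β (ζ g) ≠ 0) (hne : β ≠ β') :
    ∃ α α' : U →ₐ[ℂ] ℂ, α.comp ζ = α'.comp ζ ∧ α (ζ g) ≠ 0 ∧ α ≠ α' := by
  obtain ⟨u, hu⟩ : ∃ u, β u ≠ β' u := by
    by_contra hcon
    push Not at hcon
    exact hne (AlgHom.ext hcon)
  -- the finitely generated algebra
  have hfg : ∀ γ : U →ₐ[ℂ] Ω, γ.range.FG := fun γ => by
    have h1 := (Algebra.FiniteType.out (R := ℂ) (A := U)).map γ
    rwa [Algebra.map_top] at h1
  let A : Subalgebra ℂ Ω := β.range ⊔ β'.range
  have hA : A.FG := (hfg β).sup (hfg β')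
  have hβA : ∀ x, β x ∈ A := fun x => (le_sup_left : β.range ≤ A) ⟨x, rfl⟩
  have hβA' : ∀ x, β' x ∈ A := fun x => (le_sup_right : β'.range ≤ A) ⟨x, rfl⟩
  have h1 : (β u - β' u) * β (ζ g) ≠ 0 := mul_ne_zero (sub_ne_zero.2 hu) hg
  have h2 : (β u - β' u) * β (ζ g) ∈ A := A.mul_mem (A.sub_mem (hβA u) (hβA' u)) (hβA _)
  obtain ⟨w, hw⟩ := exists_spec A hA h2 h1
  let γ : U →ₐ[ℂ] A := β.codRestrict A hβA
  let γ' : U →ₐ[ℂ] A := β'.codRestrict A hβA'
  have h3 : (⟨(β u - β' u) * β (ζ g), h2⟩ : A) = (γ u - γ' u) * γ (ζ g) := rfl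
  rw [h3, map_mul, map_sub] at hw
  refine ⟨w.comp γ, w.comp γ', ?_, ?_, ?_⟩
  · ext r
    have h4 : γ (ζ r) = γ' (ζ r) := Subtype.ext (DFunLike.congr_fun hββ r)
    change w (γ (ζ r)) = w (γ' (ζ r))
    rw [h4]
  · exact right_ne_zero_of_mul hw
  · intro h
    exact left_ne_zero_of_mul hw (sub_eq_zero.2 (DFunLike.congr_fun h u))

/-- Nullstellensatz over any field. -/
theorem exists_hom_closure (F : Type*) [Field F] (B : Type*) [CommRing B] [Nontrivial B]
    [Algebra F B] [Algebra.FiniteType F B] : Nonempty (B →ₐ[F] AlgebraicClosure F) := by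
  obtain ⟨m, hm⟩ := Ideal.exists_maximal B
  let _ : Field (B ⧸ m) := Ideal.Quotient.field m
  have hfin : Module.Finite F (B ⧸ m) := finite_of_finite_type_of_isJacobsonRing F _
  have halg : Algebra.IsAlgebraic F (B ⧸ m) := Algebra.IsAlgebraic.of_finite F _
  exact ⟨(IsAlgClosed.lift : (B ⧸ m) →ₐ[F] AlgebraicClosure F).comp (Ideal.Quotient.mkₐ F m)⟩

section
variable {R U : Type*} [CommRing R] [IsDomain R] [Algebra ℂ R] [Algebra.FiniteType ℂ R]
  [CommRing U] [Algebra ℂ U] [Algebra.FiniteType ℂ U] {F : Type*} [Field F] [Algebra ℂ F]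
  [Algebra R F] [IsScalarTower ℂ R F] [IsFractionRing R F]

/-- A solution over the algebraic closure of the function field. -/
theorem exists_over_closure (ζ : R →ₐ[ℂ] U) {g : R} (hg : g ≠ 0)
    (hex : ∀ z : R →ₐ[ℂ] ℂ, z g ≠ 0 → ∃ α : U →ₐ[ℂ] ℂ, α.comp ζ = z) :
    ∃ β : U →ₐ[ℂ] AlgebraicClosure F, ∀ r, β (ζ r) =
      algebraMap F (AlgebraicClosure F) (algebraMap R F r) := by
  let _ : Algebra R U := ζ.toRingHom.toAlgebra
  have : IsScalarTower ℂ R U := IsScalarTower.of_algebraMap_eq fun c => by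
    rw [RingHom.algebraMap_toAlgebra]
    exact (ζ.commutes c).symm
  have : Algebra.FiniteType R U := .of_restrictScalars_finiteType ℂ R U
  have hnt : Nontrivial (F ⊗[R] U) := by
    by_contra hnt
    rw [not_nontrivial_iff_subsingleton] at hnt
    have h1 : TensorProduct.mk R F U 1 1 = 0 := Subsingleton.elim _ _
    obtain ⟨s, hs⟩ := (IsLocalizedModule.eq_zero_iff (nonZeroDivisors R)
      (TensorProduct.mk R F U 1)).1 h1
    have hs0 : (s : R) ≠ 0 := nonZeroDivisors.ne_zero s.2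
    obtain ⟨z, hz⟩ := exists_point (mul_ne_zero hs0 hg)
    rw [map_mul] at hz
    obtain ⟨α, hα⟩ := hex z (right_ne_zero_of_mul hz)
    apply left_ne_zero_of_mul hz
    rw [← hα]
    change α (ζ s) = 0
    have h2 : ζ (s : R) = 0 := by
      have h3 : (s : R) • (1 : U) = 0 := hs
      rwa [Algebra.smul_def, mul_one] at h3
    rw [h2, map_zero]
  obtain ⟨j⟩ := exists_hom_closure F (F ⊗[R] U)
  let b : U →+* AlgebraicClosure F :=
    (j : (F ⊗[R] U) →+* AlgebraicClosure F).comp
      (Algebra.TensorProduct.includeRight : U →ₐ[R] F ⊗[R] U).toRingHom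
  have hb : ∀ r, b (ζ r) = algebraMap F (AlgebraicClosure F) (algebraMap R F r) := by
    intro r
    change j (Algebra.TensorProduct.includeRight (R := R) (A := F) (algebraMap R U r)) = _
    rw [AlgHom.commutes, IsScalarTower.algebraMap_apply R F (F ⊗[R] U)]
    exact j.commutes _
  refine ⟨{ b with commutes' := fun c => ?_ }, hb⟩
  change b (algebraMap ℂ U c) = _
  rw [← ζ.commutes c, hb, ← IsScalarTower.algebraMap_apply ℂ R F,
    ← IsScalarTower.algebraMap_apply ℂ F (AlgebraicClosure F)]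

/-- **Spreading out** : if over each general closed point of `R` there is exactly one point of `U`
then `U` has a point over the function field of `R`. -/
theorem exists_section (ζ : R →ₐ[ℂ] U) {g : R} (hg : g ≠ 0)
    (hex : ∀ z : R →ₐ[ℂ] ℂ, z g ≠ 0 → ∃ α : U →ₐ[ℂ] ℂ, α.comp ζ = z)
    (huni : ∀ α α' : U →ₐ[ℂ] ℂ, α.comp ζ = α'.comp ζ → α (ζ g) ≠ 0 → α = α') :
    ∃ α : U →ₐ[ℂ] F, ∀ r, α (ζ r) = algebraMap R F r := by
  obtain ⟨β, hβ⟩ := exists_over_closure (F := F) ζ hg hex
  have hinj : Function.Injective (algebraMap F (AlgebraicClosure F)) :=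
    (algebraMap F (AlgebraicClosure F)).injective
  have hchar : CharZero F := charZero_of_injective_algebraMap (algebraMap ℂ F).injective
  have hmem : ∀ u, β u ∈ Set.range (algebraMap F (AlgebraicClosure F)) := by
    intro u
    have : IsGalois F (AlgebraicClosure F) := ⟨⟩
    rw [InfiniteGalois.mem_range_algebraMap_iff_fixed]
    intro σ
    by_contra hne
    let β' : U →ₐ[ℂ] AlgebraicClosure F := (σ.toAlgHom.restrictScalars ℂ).comp β
    have h1 : β.comp ζ = β'.comp ζ := by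
      ext r
      change β (ζ r) = σ (β (ζ r))
      rw [hβ, AlgEquiv.commutes]
    obtain ⟨α, α', h2, h3, h4⟩ := exists_two ζ β β' h1 (g := g) (by
      rw [hβ]
      exact fun h => hg (IsFractionRing.injective R F (by
        rw [map_zero]; exact hinj (by rw [h, map_zero])))) (fun h => hne (by
        have := DFunLike.congr_fun h u
        exact this.symm))
    exact h4 (huni α α' h2 h3)
  choose f hf using hmem
  refine ⟨{ toFun := f, map_one' := hinj ?_, map_mul' := fun x y => hinj ?_,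
            map_zero' := hinj ?_, map_add' := fun x y => hinj ?_, commutes' := fun c => hinj ?_ },
    fun r => hinj ?_⟩
  · rw [hf, map_one, map_one]
  · rw [hf, map_mul, map_mul, hf, hf]
  · rw [hf, map_zero, map_zero]
  · rw [hf, map_add, map_add, hf, hf]
  · rw [hf, AlgHom.commutes, ← IsScalarTower.algebraMap_apply ℂ F (AlgebraicClosure F)]
  · change algebraMap F _ (f (ζ r)) = _
    rw [hf, hβ]

end

end Vale.Agent.P280.S
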