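import Vale.Agent.P280.S.Defs
import Vale.Agent.P280.S.H145.Spread

/-! P280, Theorem S, row B1: specialisation of weak curves and chains. -/

open Polynomial

namespace Vale.Agent.P280.S

section
variable {R : Type} [CommRing R] [Algebra ℂ R]

theorem exists_finset_adjoin {S : Set R} {x : R} (hx : x ∈ Algebra.adjoin ℂ S) :
    ∃ T : Finset R, (T : Set R) ⊆ S ∧ x ∈ Algebra.adjoin ℂ (T : Set R) := by
  classical
  induction hx using Algebra.adjoin_induction with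
  | mem x hx => exact ⟨{x}, by simpa using hx, Algebra.subset_adjoin (by simp)⟩
  | algebraMap r => exact ⟨∅, by simp, Subalgebra.algebraMap_mem _ r⟩
  | add x y _ _ hx hy =>
    obtain ⟨T, hT, h1⟩ := hx
    obtain ⟨T', hT', h2⟩ := hy
    refine ⟨T ∪ T', by simpa using ⟨hT, hT'⟩, Subalgebra.add_mem _ ?_ ?_⟩
    · exact Algebra.adjoin_mono (by simp) h1
    · exact Algebra.adjoin_mono (by simp) h2
  | mul x y _ _ hx hy =>
    obtain ⟨T, hT, h1⟩ := hx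
    obtain ⟨T', hT', h2⟩ := hy
    refine ⟨T ∪ T', by simpa using ⟨hT, hT'⟩, Subalgebra.mul_mem _ ?_ ?_⟩
    · exact Algebra.adjoin_mono (by simp) h1
    · exact Algebra.adjoin_mono (by simp) h2

/-- A finite set of generators of degree one. -/
theorem exists_gen1 {𝒜 : ℕ → Submodule ℂ R} (hft : Algebra.FiniteType ℂ R)
    (hgen : Algebra.adjoin ℂ {h : R | h ∈ 𝒜 1} = ⊤) :
    ∃ T : Finset R, (∀ t ∈ T, t ∈ 𝒜 1) ∧ Algebra.adjoin ℂ (T : Set R) = ⊤ := by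
  classical
  obtain ⟨S, hS⟩ := hft.out
  have h1 : ∀ s : R, ∃ T : Finset R, (T : Set R) ⊆ {h : R | h ∈ 𝒜 1} ∧
      s ∈ Algebra.adjoin ℂ (T : Set R) := fun s =>
    exists_finset_adjoin (by rw [hgen]; exact Algebra.mem_top)
  choose T hT hsT using h1
  refine ⟨S.biUnion T, fun t ht => ?_, ?_⟩
  · obtain ⟨s, -, hs⟩ := Finset.mem_biUnion.1 ht
    exact hT s hs
  · rw [eq_top_iff, ← hS]
    refine Algebra.adjoin_le fun s hs => ?_
    refine Algebra.adjoin_mono ?_ (hsT s)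
    intro t ht
    exact Finset.mem_coe.2 (Finset.mem_biUnion.2 ⟨s, hs, ht⟩)

/-- A homomorphism whose values at generators lie in a subalgebra. -/
theorem exists_cod {T : Finset R} (hT : Algebra.adjoin ℂ (T : Set R) = ⊤) {K : Type} [CommRing K]
    [Algebra ℂ K] (A : Subalgebra ℂ K) (q : R →ₐ[ℂ] K) (h : ∀ t ∈ T, q t ∈ A) :
    ∃ Q : R →ₐ[ℂ] A, ∀ r, (Q r : K) = q r := by
  have h1 : ∀ r, q r ∈ A := by
    intro r
    have h2 : (⊤ : Subalgebra ℂ R) ≤ A.comap q := by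
      rw [← hT]
      exact Algebra.adjoin_le fun t ht => h t ht
    exact h2 Algebra.mem_top
  exact ⟨q.codRestrict A h1, fun r => rfl⟩

/-- Polynomials with coefficients in a subalgebra. -/
theorem exists_cod_poly {T : Finset R} (hT : Algebra.adjoin ℂ (T : Set R) = ⊤) {K : Type}
    [CommRing K] [Algebra ℂ K] (A : Subalgebra ℂ K) (ψ : R →ₐ[ℂ] K[X])
    (h : ∀ t ∈ T, ∀ i, (ψ t).coeff i ∈ A) :
    ∃ Ψ : R →ₐ[ℂ] A[X], ∀ r i, ((Ψ r).coeff i : K) = (ψ r).coeff i := by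
  have hinj : Function.Injective (mapAlgHom A.val) := by
    rw [coe_mapAlgHom]
    exact Polynomial.map_injective _ Subtype.val_injective
  have h1 : ∀ r, ψ r ∈ (mapAlgHom A.val).range := by
    intro r
    have h2 : (⊤ : Subalgebra ℂ R) ≤ (mapAlgHom A.val).range.comap ψ := by
      rw [← hT]
      refine Algebra.adjoin_le fun t ht => ?_
      have h3 : ψ t ∈ lifts (A.val : A →+* K) := by
        rw [lifts_iff_coeff_lifts]
        intro n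
        exact ⟨⟨_, h t ht n⟩, rfl⟩
      obtain ⟨p, hp⟩ := (mem_lifts _).1 h3
      exact ⟨p, hp⟩
    exact h2 Algebra.mem_top
  let e : A[X] ≃ₐ[ℂ] (mapAlgHom A.val).range := AlgEquiv.ofInjective _ hinj
  refine ⟨e.symm.toAlgHom.comp (ψ.codRestrict _ h1), fun r i => ?_⟩
  have h2 : mapAlgHom A.val (e.symm ⟨ψ r, h1 r⟩) = ψ r :=
    congrArg Subtype.val (e.apply_symm_apply ⟨ψ r, h1 r⟩)
  change (((e.symm ⟨ψ r, h1 r⟩).coeff i : A) : K) = _
  conv_rhs => rw [← h2]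
  rw [coe_mapAlgHom, coeff_map]
  rfl

end

section
variable {R : Type} [CommRing R] [Algebra ℂ R] {𝒜 : ℕ → Submodule ℂ R}
variable {K L : Type} [Field K] [Algebra ℂ K] [Field L] [Algebra ℂ L]

/-- The specialisation of a weak curve. -/
noncomputable def sp {A : Subalgebra ℂ K} (w : A →ₐ[ℂ] L) (Ψ : R →ₐ[ℂ] A[X]) : R →ₐ[ℂ] L[X] :=
  (mapAlgHom w).comp Ψ

theorem sp_coeff {A : Subalgebra ℂ K} (w : A →ₐ[ℂ] L) (Ψ : R →ₐ[ℂ] A[X]) (r : R) (i : ℕ) :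
    (sp w Ψ r).coeff i = w ((Ψ r).coeff i) := by
  change (mapAlgHom w (Ψ r)).coeff i = _
  rw [coe_mapAlgHom, coeff_map]
  rfl

theorem deg_sp {A : Subalgebra ℂ K} (w : A →ₐ[ℂ] L) {Ψ : R →ₐ[ℂ] A[X]} {ψ : R →ₐ[ℂ] K[X]}
    (h : ∀ r i, ((Ψ r).coeff i : K) = (ψ r).coeff i) {e : ℕ} (hd : Deg 𝒜 e ψ) :
    Deg 𝒜 e (sp w Ψ) := by
  intro d x hx
  refine natDegree_le_iff_coeff_eq_zero.2 fun i hi => ?_
  rw [sp_coeff]
  have h1 : (Ψ x).coeff i = 0 := Subtype.ext (by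
    rw [h]
    exact coeff_eq_zero_of_natDegree_lt (lt_of_le_of_lt (hd d x hx) hi))
  rw [h1, map_zero]

theorem starts_sp {A : Subalgebra ℂ K} (w : A →ₐ[ℂ] L) {Ψ : R →ₐ[ℂ] A[X]} {ψ : R →ₐ[ℂ] K[X]}
    (h : ∀ r i, ((Ψ r).coeff i : K) = (ψ r).coeff i) {q : R →ₐ[ℂ] K} {Q : R →ₐ[ℂ] A}
    (hQ : ∀ r, (Q r : K) = q r) {c : K} (hcA : c ∈ A) (hc : w ⟨c, hcA⟩ ≠ 0)
    (hs : ∀ d : ℕ, ∀ x ∈ 𝒜 d, (ψ x).coeff 0 = c ^ d * q x) : Starts 𝒜 (sp w Ψ) (w.comp Q) := by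
  refine ⟨w ⟨c, hcA⟩, hc, fun d x hx => ?_⟩
  rw [sp_coeff]
  have h1 : (Ψ x).coeff 0 = ⟨c, hcA⟩ ^ d * Q x := Subtype.ext (by
    rw [h, hs d x hx, ← hQ]
    rfl)
  rw [h1, map_mul, map_pow]
  rfl

theorem ends_sp {A : Subalgebra ℂ K} (w : A →ₐ[ℂ] L) {Ψ : R →ₐ[ℂ] A[X]} {ψ : R →ₐ[ℂ] K[X]}
    (h : ∀ r i, ((Ψ r).coeff i : K) = (ψ r).coeff i) {q : R →ₐ[ℂ] K} {Q : R →ₐ[ℂ] A}
    (hQ : ∀ r, (Q r : K) = q r) {c : K} (hcA : c ∈ A) (hc : w ⟨c, hcA⟩ ≠ 0) {e : ℕ}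
    (hs : ∀ d : ℕ, ∀ x ∈ 𝒜 d, (ψ x).coeff (d * e) = c ^ d * q x) :
    Ends 𝒜 e (sp w Ψ) (w.comp Q) := by
  refine ⟨w ⟨c, hcA⟩, hc, fun d x hx => ?_⟩
  rw [sp_coeff]
  have h1 : (Ψ x).coeff (d * e) = ⟨c, hcA⟩ ^ d * Q x := Subtype.ext (by
    rw [h, hs d x hx, ← hQ]
    rfl)
  rw [h1, map_mul, map_pow]
  rfl

/-- Specialisation of weak chains. -/
theorem spec_ch {T : Finset R} (hT : Algebra.adjoin ℂ (T : Set R) = ⊤) {n : ℕ}
    {p q : R →ₐ[ℂ] K} (hch : Ch 𝒜 K n p q) :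
    ∃ S N : Finset K, (∀ s ∈ N, s ≠ 0) ∧ ∀ (A : Subalgebra ℂ K), (∀ s ∈ S, s ∈ A) →
      ∀ (hN : ∀ s ∈ N, s ∈ A) (w : A →ₐ[ℂ] L), (∀ s (hs : s ∈ N), w ⟨s, hN s hs⟩ ≠ 0) →
      ∃ P Q : R →ₐ[ℂ] A, (∀ r, (P r : K) = p r) ∧ (∀ r, (Q r : K) = q r) ∧
        Ch 𝒜 L n (w.comp P) (w.comp Q) := by
  classical
  induction hch with
  | refl q hq =>
    obtain ⟨x, hx, hqx⟩ := hq
    refine ⟨T.image q, {q x}, by simpa using hqx, fun A hS hN w hw => ?_⟩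
    obtain ⟨Q, hQ⟩ := exists_cod hT A q fun t ht => hS _ (Finset.mem_image_of_mem _ ht)
    refine ⟨Q, Q, hQ, hQ, Ch.refl _ ⟨x, hx, ?_⟩⟩
    have h1 : Q x = ⟨q x, hN _ (Finset.mem_singleton_self _)⟩ := Subtype.ext (hQ x)
    change w (Q x) ≠ 0
    rw [h1]
    exact hw _ (Finset.mem_singleton_self _)
  | step n e p q q' ψ _ hq' hd hs he ih =>
    obtain ⟨S, N, hN0, ih⟩ := ih
    obtain ⟨x, hx, hqx⟩ := hq'
    obtain ⟨c, hc, hs⟩ := hs
    obtain ⟨c', hc', he⟩ := he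
    refine ⟨S ∪ T.image q' ∪ T.biUnion (fun t => (ψ t).support.image (ψ t).coeff),
      N ∪ {c, c', q' x}, ?_, fun A hS hN w hw => ?_⟩
    · intro s hs
      simp only [Finset.mem_union, Finset.mem_insert, Finset.mem_singleton] at hs
      rcases hs with hs | rfl | rfl | rfl
      · exact hN0 s hs
      · exact hc
      · exact hc'
      · exact hqx
    · have hcN : c ∈ N ∪ {c, c', q' x} := by simp
      have hcN' : c' ∈ N ∪ {c, c', q' x} := by simp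
      have hqN : q' x ∈ N ∪ {c, c', q' x} := by simp
      obtain ⟨P, Q, hP, hQ, hPQ⟩ := ih A (fun s hs => hS s (by simp [hs]))
        (fun s hs => hN s (by simp [hs])) w (fun s hs => hw s (by simp [hs]))
      obtain ⟨Q', hQ'⟩ := exists_cod hT A q' fun t ht => hS _ (by
        simp only [Finset.mem_union]
        exact Or.inl (Or.inr (Finset.mem_image_of_mem _ ht)))
      obtain ⟨Ψ, hΨ⟩ := exists_cod_poly hT A ψ fun t ht i => by
        by_cases hi : (ψ t).coeff i = 0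
        · rw [hi]
          exact A.zero_mem
        · apply hS
          simp only [Finset.mem_union]
          refine Or.inr (Finset.mem_biUnion.2 ⟨t, ht, Finset.mem_image.2 ⟨i, ?_, rfl⟩⟩)
          exact mem_support_iff.2 hi
      refine ⟨P, Q', hP, hQ', Ch.step n e _ _ _ (sp w Ψ) hPQ ⟨x, hx, ?_⟩ (deg_sp w hΨ hd)
        (starts_sp w hΨ hQ (hN c hcN) (hw c hcN) hs)
        (ends_sp w hΨ hQ' (hN c' hcN') (hw c' hcN') he)⟩
      have h1 : Q' x = ⟨q' x, hN _ hqN⟩ := Subtype.ext (hQ' x)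
      change w (Q' x) ≠ 0
      rw [h1]
      exact hw _ hqN

/-- Specialisation of solutions. -/
theorem spec_sol {T : Finset R} (hT : Algebra.adjoin ℂ (T : Set R) = ⊤) {x : R →ₐ[ℂ] ℂ}
    {J : Set R} {e : ℕ} {θ : R →ₐ[ℂ] K} {ψ : R →ₐ[ℂ] K[X]} (h : Sol 𝒜 x J e θ ψ) :
    ∃ S N : Finset K, (∀ s ∈ N, s ≠ 0) ∧ ∀ (A : Subalgebra ℂ K), (∀ s ∈ S, s ∈ A) →
      ∀ (hN : ∀ s ∈ N, s ∈ A) (w : A →ₐ[ℂ] L), (∀ s (hs : s ∈ N), w ⟨s, hN s hs⟩ ≠ 0) →
      ∃ (Θ : R →ₐ[ℂ] A) (Ψ : R →ₐ[ℂ] A[X]), (∀ r, (Θ r : K) = θ r) ∧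
        (∀ r i, ((Ψ r).coeff i : K) = (ψ r).coeff i) ∧ Sol 𝒜 x J e (w.comp Θ) (sp w Ψ) := by
  classical
  obtain ⟨hd, ⟨c, hc, hs⟩, ⟨y, ⟨u, hu, hyu⟩, hJ, ⟨c', hc', he⟩⟩, hone⟩ := h
  refine ⟨T.image y ∪ T.image θ ∪ T.biUnion (fun t => (ψ t).support.image (ψ t).coeff),
    {c, c', y u}, ?_, fun A hS hN w hw => ?_⟩
  · intro s hs
    simp only [Finset.mem_insert, Finset.mem_singleton] at hs
    rcases hs with rfl | rfl | rfl
    · exact hc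
    · exact hc'
    · exact hyu
  · have hcN : c ∈ ({c, c', y u} : Finset K) := by simp
    have hcN' : c' ∈ ({c, c', y u} : Finset K) := by simp
    have hqN : y u ∈ ({c, c', y u} : Finset K) := by simp
    obtain ⟨Y, hY⟩ := exists_cod hT A y fun t ht => hS _ (by
      simp only [Finset.mem_union]
      exact Or.inl (Or.inl (Finset.mem_image_of_mem _ ht)))
    obtain ⟨Θ, hΘ⟩ := exists_cod hT A θ fun t ht => hS _ (by
      simp only [Finset.mem_union]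
      exact Or.inl (Or.inr (Finset.mem_image_of_mem _ ht)))
    obtain ⟨Ψ, hΨ⟩ := exists_cod_poly hT A ψ fun t ht i => by
      by_cases hi : (ψ t).coeff i = 0
      · rw [hi]
        exact A.zero_mem
      · apply hS
        simp only [Finset.mem_union]
        refine Or.inr (Finset.mem_biUnion.2 ⟨t, ht, Finset.mem_image.2 ⟨i, ?_, rfl⟩⟩)
        exact mem_support_iff.2 hi
    refine ⟨Θ, Ψ, hΘ, hΨ, ⟨deg_sp w hΨ hd, ?_, ⟨w.comp Y, ⟨u, hu, ?_⟩, ?_,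
      ends_sp w hΨ hY (hN c' hcN') (hw c' hcN') he⟩, ?_⟩⟩
    · have h1 : (Algebra.ofId ℂ L).comp x = w.comp ((Algebra.ofId ℂ A).comp x) := by
        ext r
        exact (w.commutes (x r)).symm
      rw [h1]
      exact starts_sp w hΨ (q := (Algebra.ofId ℂ K).comp x) (fun r => rfl) (hN c hcN) (hw c hcN) hs
    · have h1 : Y u = ⟨y u, hN _ hqN⟩ := Subtype.ext (hY u)
      change w (Y u) ≠ 0
      rw [h1]
      exact hw _ hqN
    · intro j hj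
      have h1 : Y j = 0 := Subtype.ext (by rw [hY, hJ j hj]; rfl)
      change w (Y j) = 0
      rw [h1, map_zero]
    · intro r
      have h1 : (Ψ r).eval 1 = Θ r := Subtype.ext (by
        rw [hΘ, ← hone r]
        have h2 : (Ψ r).map (algebraMap A K) = ψ r := by
          ext i
          rw [coeff_map]
          exact hΨ r i
        rw [← h2, eval_one_map]
        rfl)
      change ((mapAlgHom w (Ψ r))).eval 1 = w (Θ r)
      rw [coe_mapAlgHom, ← h1, eval_one_map]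
      rfl

end

end Vale.Agent.P280.S
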