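import Vale.Agent.P280.S.H145.Spec

/-! P280, Theorem S, rows B1 and B2: specialisation to closed points and uniqueness. -/

open Polynomial

namespace Vale.Agent.P280.S

/-- A closed point of a finitely generated algebra generated by given elements. -/
theorem exists_spec_finset {K : Type} [Field K] [Algebra ℂ K] (S N : Finset K)
    (hN : ∀ s ∈ N, s ≠ 0) : ∃ (A : Subalgebra ℂ K) (_ : ∀ s ∈ S, s ∈ A) (hNA : ∀ s ∈ N, s ∈ A)
      (w : A →ₐ[ℂ] ℂ), ∀ s (hs : s ∈ N), w ⟨s, hNA s hs⟩ ≠ 0 := by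
  classical
  let A : Subalgebra ℂ K := Algebra.adjoin ℂ ((S ∪ N : Finset K) : Set K)
  have hA : A.FG := Subalgebra.fg_adjoin_finset _
  have hS : ∀ s ∈ S, s ∈ A := fun s hs => Algebra.subset_adjoin (by simp [hs])
  have hNA : ∀ s ∈ N, s ∈ A := fun s hs => Algebra.subset_adjoin (by simp [hs])
  have h1 : ∏ s ∈ N, s ∈ A := Subalgebra.prod_mem _ hNA
  obtain ⟨w, hw⟩ := exists_spec A hA h1 (Finset.prod_ne_zero_iff.2 hN)
  refine ⟨A, hS, hNA, w, fun s hs h0 => hw ?_⟩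
  have h2 : (⟨∏ s ∈ N, s, h1⟩ : A) = ⟨s, hNA s hs⟩ *
      ⟨∏ s ∈ N.erase s, s, Subalgebra.prod_mem _ fun t ht => hNA t (Finset.mem_of_mem_erase ht)⟩ :=
    Subtype.ext (Finset.mul_prod_erase N (fun s => s) hs).symm
  rw [h2, map_mul, h0, zero_mul]

section
variable {R : Type} [CommRing R] [Algebra ℂ R] {𝒜 : ℕ → Submodule ℂ R}

/-- Row B1: weak chains from a closed point to `Y` specialise to `ℂ`. -/
theorem spec_chain (hft : Algebra.FiniteType ℂ R) (hgen : Algebra.adjoin ℂ {h : R | h ∈ 𝒜 1} = ⊤)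
    {k : Type} [Field k] [Algebra ℂ k] {x : R →ₐ[ℂ] ℂ} {J : Set R} {n : ℕ} {y : R →ₐ[ℂ] k}
    (hy : NV 𝒜 y) (hJ : ∀ h ∈ J, y h = 0) (hch : Ch 𝒜 k n ((Algebra.ofId ℂ k).comp x) y) :
    ∃ y0 : R →ₐ[ℂ] ℂ, NV 𝒜 y0 ∧ (∀ h ∈ J, y0 h = 0) ∧ Ch 𝒜 ℂ n x y0 := by
  classical
  obtain ⟨T, -, hT⟩ := exists_gen1 hft hgen
  obtain ⟨u, hu, hyu⟩ := hy
  obtain ⟨S, N, hN0, h1⟩ := spec_ch (L := ℂ) hT hch
  obtain ⟨A, hS, hNA, w, hw⟩ := exists_spec_finset S (N ∪ {y u}) (by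
    intro s hs
    rcases Finset.mem_union.1 hs with hs | hs
    · exact hN0 s hs
    · rw [Finset.mem_singleton.1 hs]
      exact hyu)
  obtain ⟨P, Q, hP, hQ, h2⟩ := h1 A hS (fun s hs => hNA s (Finset.mem_union_left _ hs)) w
    fun s hs => hw s (Finset.mem_union_left _ hs)
  have hPx : w.comp P = x := by
    ext r
    have h3 : P r = algebraMap ℂ A (x r) := Subtype.ext (hP r)
    change w (P r) = x r
    rw [h3, AlgHom.commutes]
    rfl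
  rw [hPx] at h2
  refine ⟨w.comp Q, ⟨u, hu, ?_⟩, fun j hj => ?_, h2⟩
  · have h3 : Q u = ⟨y u, hNA _ (Finset.mem_union_right _ (Finset.mem_singleton_self _))⟩ :=
      Subtype.ext (hQ u)
    change w (Q u) ≠ 0
    rw [h3]
    exact hw _ (Finset.mem_union_right _ (Finset.mem_singleton_self _))
  · have h3 : Q j = 0 := Subtype.ext (by rw [hQ, hJ j hj]; rfl)
    change w (Q j) = 0
    rw [h3, map_zero]

/-- Row B2: uniqueness over any field. -/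
theorem sol_unique (hft : Algebra.FiniteType ℂ R) (hgen : Algebra.adjoin ℂ {h : R | h ∈ 𝒜 1} = ⊤)
    {x : R →ₐ[ℂ] ℂ} {J : Set R} {e : ℕ} {g : R}
    (huniq : ∀ z : R →ₐ[ℂ] ℂ, z g ≠ 0 → ∃! ψ : R →ₐ[ℂ] ℂ[X], Sol 𝒜 x J e z ψ)
    {k : Type} [Field k] [Algebra ℂ k] {θ : R →ₐ[ℂ] k} (hθ : θ g ≠ 0) {ψ ψ' : R →ₐ[ℂ] k[X]}
    (h : Sol 𝒜 x J e θ ψ) (h' : Sol 𝒜 x J e θ ψ') : ψ = ψ' := by
  classical
  by_contra hne
  obtain ⟨r, i, hri⟩ : ∃ r i, (ψ r).coeff i ≠ (ψ' r).coeff i := by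
    by_contra hcon
    push Not at hcon
    exact hne (AlgHom.ext fun r => Polynomial.ext (hcon r))
  obtain ⟨T, -, hT⟩ := exists_gen1 hft hgen
  obtain ⟨S, N, hN0, h1⟩ := spec_sol (L := ℂ) hT h
  obtain ⟨S', N', hN0', h1'⟩ := spec_sol (L := ℂ) hT h'
  have hd0 : (ψ r).coeff i - (ψ' r).coeff i ≠ 0 := sub_ne_zero.2 hri
  obtain ⟨A, hS, hNA, w, hw⟩ := exists_spec_finset (S ∪ S')
    (N ∪ N' ∪ {θ g, (ψ r).coeff i - (ψ' r).coeff i}) (by
    intro s hs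
    simp only [Finset.mem_union, Finset.mem_insert, Finset.mem_singleton] at hs
    rcases hs with (hs | hs) | rfl | rfl
    · exact hN0 s hs
    · exact hN0' s hs
    · exact hθ
    · exact hd0)
  obtain ⟨Θ, Ψ, hΘ, hΨ, h2⟩ := h1 A (fun s hs => hS s (by simp [hs]))
    (fun s hs => hNA s (by simp [hs])) w fun s hs => hw s (by simp [hs])
  obtain ⟨Θ', Ψ', hΘ', hΨ', h2'⟩ := h1' A (fun s hs => hS s (by simp [hs]))
    (fun s hs => hNA s (by simp [hs])) w fun s hs => hw s (by simp [hs])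
  have hΘΘ : Θ' = Θ := by
    ext r
    rw [hΘ, hΘ']
  rw [hΘΘ] at h2'
  have hg : w (Θ g) ≠ 0 := by
    have h3 : Θ g = ⟨θ g, hNA _ (by simp)⟩ := Subtype.ext (hΘ g)
    rw [h3]
    exact hw _ (by simp)
  have h4 := (huniq (w.comp Θ) hg).unique h2 h2'
  have h5 : w ((Ψ r).coeff i) = w ((Ψ' r).coeff i) := by
    rw [← sp_coeff, ← sp_coeff, h4]
  have h6 : (⟨(ψ r).coeff i - (ψ' r).coeff i, hNA _ (by simp)⟩ : A) =
      (Ψ r).coeff i - (Ψ' r).coeff i := Subtype.ext (by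
    change _ = ((Ψ r).coeff i : k) - ((Ψ' r).coeff i : k)
    rw [hΨ, hΨ'])
  have h7 := hw ((ψ r).coeff i - (ψ' r).coeff i) (by simp)
  rw [h6, map_sub, h5, sub_self] at h7
  exact h7 rfl

end

end Vale.Agent.P280.S
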